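import Vale.Agent.P004F.Pr.All
import Vale.Agent.P014U.Base

/-! # P014U, port of P004F, block PRES: the residue field, minimal generators (helper60) -/

set_option linter.all false

noncomputable section

namespace Vale.Agent.P014U.X4F.Pr

open Module Cardinal

export Vale.Agent.P004F.Pr (ac ac_add ac_smul ac_zero ac_map ac_lin ac_sub add_ac zero_ac mul_ac one_ac
  ac_eq mp Zk Bk cnt fin_char sep_char Iu iu_core iu_mono ex_lev adapt Ou Ad add_cyc ex_fun rq_le2
  rq_bot rq_ker dv_fp)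

variable [Pp]

/-- the prime field -/
abbrev F2 : Type := ZMod pp

theorem fin_of {X : Type} [AddCommGroup X] [Module F2 X] {m : ℕ} (h : Module.rank F2 X ≤ m) :
    Finite X ∧ Nat.card X ≤ pp ^ m := by
  have := Module.rank_lt_aleph0_iff.1 (h.trans_lt natCast_lt_aleph0)
  refine ⟨Module.finite_of_finite F2, ?_⟩
  rw [Module.natCard_eq_pow_finrank (K := F2), Nat.card_zmod]
  exact Nat.pow_le_pow_right pp_pos (finrank_le_of_rank_le h)

section gen

variable {R : Type} [CommRing R] [IsLocalRing R] (π : R →+* F2)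

theorem unit_of {r : R} (h : π r ≠ 0) : IsUnit r := by
  by_contra c
  exact h ((IsLocalRing.eq_maximalIdeal (RingHom.ker_isMaximal_of_surjective π
    (ZMod.ringHom_surjective π))).ge c)

/-- minimal generators of `K` modulo `K₀` -/
theorem min_gen {Y : Type} [AddCommGroup Y] [Module R Y] [Finite Y] (K K₀ : Submodule R Y) :
    ∃ (r : ℕ) (Q : Fin r → Y), (∀ t, Q t ∈ K) ∧ (∀ y ∈ K, ∃ c : Fin r → R,
      y - ∑ t, c t • Q t ∈ K₀) ∧ ∀ c : Fin r → R, ∑ t, c t • Q t ∈ K₀ → ∀ t, π (c t) = 0 := by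
  classical
  have ex : ∃ (r : ℕ) (Q : Fin r → Y), (∀ t, Q t ∈ K) ∧ ∀ y ∈ K, ∃ c : Fin r → R,
      y - ∑ t, c t • Q t ∈ K₀ := by
    obtain ⟨r, ⟨e⟩⟩ := Finite.exists_equiv_fin K
    exact ⟨r, fun t => e.symm t, fun t => (e.symm t).2, fun y hy => ⟨Pi.single (e ⟨y, hy⟩) 1, by
      simp [Pi.single_apply]⟩⟩
  obtain ⟨Q, h1, h2⟩ := Nat.find_spec ex
  refine ⟨_, Q, h1, h2, fun c hc t => by_contra fun n => ?_⟩
  have mn := fun m => Nat.find_min ex (m := m)
  generalize Nat.find ex = r at *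
  obtain _ | r := r
  · exact t.elim0
  obtain ⟨u, hu⟩ := unit_of π n
  refine mn r (Nat.lt_succ_self r) ⟨fun s => Q (t.succAbove s), fun s => h1 _, fun y hy => ?_⟩
  obtain ⟨d, hd⟩ := h2 y hy
  refine ⟨fun s => d (t.succAbove s) - d t * u⁻¹.1 * c (t.succAbove s), ?_⟩
  convert add_mem hd (K₀.smul_mem (d t * u⁻¹.1) hc) using 1
  rw [Fin.sum_univ_succAbove _ t, Fin.sum_univ_succAbove _ t, smul_add, smul_smul, ← hu,
    Units.inv_mul_cancel_right, Finset.smul_sum]
  simp only [sub_smul, Finset.sum_sub_distrib, smul_smul]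
  abel

theorem ex_quot {M : Type} [AddCommGroup M] [Module R M] [Finite M] [Nontrivial M] :
    ∃ f : M →ₛₗ[π] F2, f ≠ 0 := by
  obtain ⟨r, Q, -, h2, h3⟩ := min_gen π (⊤ : Submodule R M) ⊥
  choose c hc using fun y => h2 y trivial
  simp only [Submodule.mem_bot, sub_eq_zero] at hc h3
  have k : ∀ y (d : Fin r → R), y = ∑ t, d t • Q t → ∀ t, π (c y t) = π (d t) := fun y d e t => by
    rw [← sub_eq_zero, ← map_sub]
    exact h3 (c y - d) (by
      simp only [Pi.sub_apply, sub_smul, Finset.sum_sub_distrib]; rw [← hc, ← e, sub_self]) t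
  obtain _ | r := r
  · obtain ⟨y, hy⟩ := exists_ne (0 : M)
    exact (hy (by simpa using hc y)).elim
  refine ⟨⟨⟨fun y => π (c y 0), fun y z => ?_⟩, fun s y => ?_⟩, fun e => ?_⟩
  · rw [← map_add]
    exact k _ (c y + c z) (by
      simp only [Pi.add_apply, add_smul, Finset.sum_add_distrib]; rw [← hc, ← hc]) 0
  · rw [smul_eq_mul, ← map_mul]
    exact k _ (s • c y) (by
      simp only [Pi.smul_apply, smul_eq_mul, mul_smul]; rw [← Finset.smul_sum, ← hc]) 0
  · have := k (Q 0) (Pi.single 0 1) (by simp [Pi.single_apply]) 0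
    rw [show π (c (Q 0) 0) = 0 from LinearMap.congr_fun e (Q 0), Pi.single_eq_same, map_one] at this
    exact zero_ne_one this

end gen

end Vale.Agent.P014U.X4F.Pr
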